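import Mathlib
import Vale.Agent.P161.Stmt

/-!
Working definitions for P161 (see notes/P161.md).  `b` always means `d - 1`.
-/

namespace Vale.Agent.P161

open MeasureTheory Finset Filter
open scoped Classical

noncomputable section

/-- A group with `d` involutions whose right Cayley graph is the `d`-regular tree. -/
structure TG (d : ℕ) (Γ : Type) [Group Γ] where
  s : Fin d → Γ
  len : Γ → ℕ
  s_mul_s : ∀ a, s a * s a = 1
  len_one : len 1 = 0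
  eq_one : ∀ g, len g = 0 → g = 1
  step : ∀ g a, len (g * s a) = len g + 1 ∨ len (g * s a) + 1 = len g
  desc : ∀ g, len g ≠ 0 → ∃ a, len (g * s a) < len g
  uniq : ∀ g a c, len (g * s a) < len g → len (g * s c) < len g → a = c

/-- product of uniform measures -/
abbrev PP (ι : Type) : Measure (ι → unitInterval) :=
  Measure.infinitePi fun _ : ι => (volume : Measure unitInterval)

/-- bounded measurable real functions -/
def Bd {Ω : Type} [MeasurableSpace Ω] (f : Ω → ℝ) : Prop :=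
  Measurable f ∧ ∃ C, ∀ ω, |f ω| ≤ C

/-- the `L²` norm -/
def nrm {Ω : Type} [MeasurableSpace Ω] (μ : Measure Ω) (f : Ω → ℝ) : ℝ :=
  √(∫ ω, f ω ^ 2 ∂μ)

/-- action of a permutation of the sites on configurations indexed by `Γ × K` -/
def act {Γ K X : Type} (φ : Γ ≃ Γ) (ω : Γ × K → X) : Γ × K → X := fun p => ω (φ.symm p.1, p.2)

/-- edge sign: `+1` with probability `(1+θ)/2` -/
def sg (θ : ℝ) (x : unitInterval) : ℝ := if (x : ℝ) < (1 + θ) / 2 then 1 else -1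

def slope (θ r : ℝ) : ℝ := θ * (1 - r ^ 2) / (1 - θ ^ 2 * r ^ 2)

/-- amplitude of the tilt carried by an event with label `x` -/
def amp (x : unitInterval) : ℝ := if (x : ℝ) ≤ 1 / 2 then x else 0

/-- inverse distribution function of the density `(1 + z y)/2` on `[-1,1]` -/
def Yq (z w : ℝ) : ℝ := -(2 - z - 4 * w) / (1 + √(1 - z * (2 - z - 4 * w)))

/-- jump factor `τ / (1 + m τ)` for `τ = α Y(α m, w)` -/
def kap (α m w : ℝ) : ℝ := α * Yq (α * m) w / (1 + m * (α * Yq (α * m) w))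

/-- admissible tilts -/
def Adm {ι : Type} (st : ι → ℝ) : Prop := ∀ j, |st j| ≤ 1 / 2

/-- measurable functional of the tilts, bounded on admissible tilts -/
def BdA {ι : Type} (G : (ι → ℝ) → ℝ) : Prop :=
  Measurable G ∧ ∃ C, ∀ st, Adm st → |G st| ≤ C

/-- product of the tilts -/
def W {Γ : Type} (F : Finset (Γ × ℕ)) (st : Γ × ℕ → ℝ) (σ : Γ → ℝ) : ℝ :=
  ∏ j ∈ F, (1 + st j * σ j.1)

/-- cylinder indicator as a polynomial in the spins -/
def cyl {Γ : Type} (D : Finset Γ) (η : Γ → ℤˣ) (σ : Γ → ℝ) : ℝ :=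
  ∏ v ∈ D, (1 + ((η v : ℤ) : ℝ) * σ v) / 2

/-- noise space: for each event `(u,k)` a label (`false`) and a coin (`true`) -/
abbrev Om (Γ : Type) : Type := Γ × (ℕ × Bool) → unitInterval

abbrev PO (Γ : Type) : Measure (Om Γ) := PP (Γ × (ℕ × Bool))

def lab {Γ : Type} (ω : Om Γ) (i : Γ × ℕ) : unitInterval := ω (i.1, i.2, false)

def coin {Γ : Type} (ω : Om Γ) (i : Γ × ℕ) : unitInterval := ω (i.1, i.2, true)

/-- time of an event -/
def tm {Γ : Type} (ω : Om Γ) (i : Γ × ℕ) : ℝ := (i.2 : ℝ) + (lab ω i : ℝ)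

def maskS {ι : Type} (A : Set ι) (st : ι → ℝ) : ι → ℝ := fun j => if j ∈ A then st j else 0

def Lt {Γ : Type} (ω : Om Γ) (t : ℝ) : Set (Γ × ℕ) := {j | tm ω j < t}

def Le {Γ : Type} (ω : Om Γ) (t : ℝ) : Set (Γ × ℕ) := {j | tm ω j ≤ t}

/-- reference (independent, symmetric) tilts that happened before time `t` -/
def st0 {Γ : Type} (t : ℝ) (ω : Om Γ) : Γ × ℕ → ℝ :=
  maskS (Lt ω t) fun j => amp (lab ω j) * (2 * (coin ω j : ℝ) - 1)

namespace TG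

variable {d : ℕ} {Γ : Type} [Group Γ] (T : TG d Γ)

def dist (u v : Γ) : ℕ := T.len (u⁻¹ * v)

def cay : SimpleGraph Γ := SimpleGraph.fromRel fun u v => ∃ a, v = u * T.s a

/-- the component of `v` after the edge `v — v s_a` is removed -/
def side (v : Γ) (a : Fin d) : Set Γ := {u | T.dist u v < T.dist u (v * T.s a)}

/-- union of the branches at `v` in the directions `C` -/
def br (v : Γ) (C : Set (Fin d)) : Set Γ := {u | ∃ c ∈ C, u ∈ T.side (v * T.s c) c}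

/-- vertices of `side v a` at distance `k` from `v` -/
def lev : ℕ → Γ → Fin d → Finset Γ
  | 0, v, _ => {v}
  | k + 1, v, a => (univ.erase a).biUnion fun c => lev k (v * T.s c) c

def sph (v : Γ) : ℕ → Finset Γ
  | 0 => {v}
  | k + 1 => univ.biUnion fun c => T.lev k (v * T.s c) c

def ball (v : Γ) (n : ℕ) : Finset Γ := (range (n + 1)).biUnion (T.sph v)

def gp (B : Γ × Fin d → ℝ) : ℕ → Γ → Γ → ℝ
  | 0, _, _ => 1
  | n + 1, v, u => ∑ c, if u ∈ T.side (v * T.s c) c then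
      B (v * T.s c, c) * gp B n (v * T.s c) u else 0

/-- product of `B (x_j, direction back to x_{j-1})` along the path `v = x_0, …, x_k = u` -/
def g (B : Γ × Fin d → ℝ) (v u : Γ) : ℝ := T.gp B (T.dist v u) v u

/-- sum over the children of a directed edge -/
def Tc (H : Γ × Fin d → ℝ) (e : Γ × Fin d) : ℝ :=
  ∑ c ∈ univ.erase e.2, H (e.1 * T.s c, c)

/-- weighted level sums -/
def lv (w : Γ × Fin d → ℝ) : ℕ → Γ × Fin d → ℝ
  | 0, e => w e
  | j + 1, e => w e * T.Tc (lv w j) e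

/-- `qq w e = w e * (1 + Tc (qq w) e)` -/
def qq (w : Γ × Fin d → ℝ) (e : Γ × Fin d) : ℝ := ∑' j, T.lv w j e

/-- product of the edge signs along the path -/
def chi (θ : ℝ) (τ : Sym2 Γ → unitInterval) (v u : Γ) : ℝ :=
  T.g (fun e => sg θ (τ s(e.1, e.1 * T.s e.2))) v u

/-- Ising expectation given `σ_v = s` -/
def Ec (θ : ℝ) (v : Γ) (s : ℝ) (f : (Γ → ℝ) → ℝ) : ℝ :=
  ∫ τ, f (fun u => s * T.chi θ τ v u) ∂PP (Sym2 Γ)

/-- Ising expectation -/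
def Ex (θ : ℝ) (f : (Γ → ℝ) → ℝ) : ℝ := (T.Ec θ 1 1 f + T.Ec θ 1 (-1) f) / 2

def Zf (θ : ℝ) (F : Finset (Γ × ℕ)) (st : Γ × ℕ → ℝ) : ℝ := T.Ex θ (W F st)

/-- posterior expectation -/
def nu (θ : ℝ) (F : Finset (Γ × ℕ)) (st : Γ × ℕ → ℝ) (f : (Γ → ℝ) → ℝ) : ℝ :=
  T.Ex θ (fun σ => f σ * W F st σ) / T.Zf θ F st

def mag (θ : ℝ) (F : Finset (Γ × ℕ)) (st : Γ × ℕ → ℝ) (v : Γ) : ℝ :=
  T.nu θ F st fun σ => σ v

/-- events of `F` on the side of a directed edge -/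
def Fs (F : Finset (Γ × ℕ)) (e : Γ × Fin d) : Finset (Γ × ℕ) :=
  F.filter fun j => j.1 ∈ T.side e.1 e.2

/-- cavity magnetization -/
def cav (θ : ℝ) (F : Finset (Γ × ℕ)) (st : Γ × ℕ → ℝ) (e : Γ × Fin d) : ℝ :=
  T.mag θ (T.Fs F e) st e.1

/-- covariance written with magnetizations and cavity magnetizations -/
def Cf (θ : ℝ) (m : Γ → ℝ) (r : Γ × Fin d → ℝ) (v u : Γ) : ℝ :=
  (1 - m v ^ 2) * T.g (fun e => slope θ (r e)) v u

def Cons (θ : ℝ) (m : Γ → ℝ) (r : Γ × Fin d → ℝ) : Prop :=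
  (∀ v, |m v| ≤ 1) ∧ (∀ e, |r e| ≤ 1) ∧
    ∀ v a, m v * (1 + θ * r (v, a) * r (v * T.s a, a)) = r (v, a) + θ * r (v * T.s a, a)

/-- `F₁` and `F₂` are disjoint and only communicate through `v` -/
def Sep (v : Γ) (F₁ F₂ : Finset (Γ × ℕ)) : Prop :=
  Disjoint F₁ F₂ ∧ ∃ C : Set (Fin d), (∀ j ∈ F₁, j.1 = v ∨ j.1 ∈ T.br v C) ∧
    ∀ j ∈ F₂, j.1 = v ∨ j.1 ∈ T.br v Cᶜ

def stepP (θ : ℝ) (F : Finset (Γ × ℕ)) (ω : Om Γ) (st : Γ × ℕ → ℝ) : Γ × ℕ → ℝ := fun i =>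
  if i ∈ F then amp (lab ω i) *
    Yq (amp (lab ω i) * T.mag θ F (maskS (Lt ω (tm ω i)) st) i.1) (coin ω i) else 0

/-- all tilts of the finite process run on the events `F` -/
def proc (θ : ℝ) (F : Finset (Γ × ℕ)) (ω : Om Γ) : Γ × ℕ → ℝ := (T.stepP θ F ω)^[F.card] 0

/-- the tilts that happened before time `t` -/
def St (θ : ℝ) (F : Finset (Γ × ℕ)) (t : ℝ) (ω : Om Γ) : Γ × ℕ → ℝ :=
  maskS (Lt ω t) (T.proc θ F ω)

def mP (θ : ℝ) (F : Finset (Γ × ℕ)) (t : ℝ) (ω : Om Γ) (v : Γ) : ℝ := T.mag θ F (T.St θ F t ω) v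

def rP (θ : ℝ) (F : Finset (Γ × ℕ)) (t : ℝ) (ω : Om Γ) (e : Γ × Fin d) : ℝ :=
  T.cav θ F (T.St θ F t ω) e

def CP (θ : ℝ) (F : Finset (Γ × ℕ)) (t : ℝ) (ω : Om Γ) (v u : Γ) : ℝ :=
  T.Cf θ (T.mP θ F t ω) (T.rP θ F t ω) v u

/-- bound (per squared amplitude) for the squared jump at the event `i` of the difference of the
magnetizations at `v` -/
def Kf (θ θ' : ℝ) (F F' : Finset (Γ × ℕ)) (v : Γ) (i : Γ × ℕ) (t : ℝ) (ω : Om Γ) : ℝ :=
  if i ∈ F then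
    if i ∈ F' then
      8 * (T.CP θ F t ω v i.1 - T.CP θ' F' t ω v i.1) ^ 2 +
        32 * T.CP θ' F' t ω v i.1 ^ 2 * (T.mP θ F t ω i.1 - T.mP θ' F' t ω i.1) ^ 2
    else 4 * T.CP θ F t ω v i.1 ^ 2
  else if i ∈ F' then 4 * T.CP θ' F' t ω v i.1 ^ 2 else 0

def FB (v : Γ) (n : ℕ) : Finset (Γ × ℕ) := T.ball v n ×ˢ range n

/-- tilted reference expectation -/
def tE (θ : ℝ) (F : Finset (Γ × ℕ)) (t : ℝ) (G : (Γ × ℕ → ℝ) → ℝ) : ℝ :=
  ∫ ω, G (st0 t ω) * T.Zf θ F (st0 t ω) ∂PO Γ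

/-- infinite-volume magnetization -/
def MI (θ t : ℝ) (ω : Om Γ) (v : Γ) : ℝ := limsup (fun n => T.mP θ (T.FB v n) t ω v) atTop

/-- infinite-volume cavity magnetization -/
def RI (θ t : ℝ) (ω : Om Γ) (e : Γ × Fin d) : ℝ :=
  limsup (fun n => T.rP θ (T.FB e.1 n) t ω e) atTop

/-- squared slopes summed over the side of an edge -/
def qI (θ : ℝ) (r : Γ × Fin d → ℝ) (e : Γ × Fin d) : ℝ := T.qq (fun f => slope θ (r f) ^ 2) e

/-- an equivariant consistent pair of random fields -/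
structure Fld (θ : ℝ) (M : Om Γ → Γ → ℝ) (R : Om Γ → Γ × Fin d → ℝ) : Prop where
  mM : ∀ v, Measurable fun ω => M ω v
  mR : ∀ e, Measurable fun ω => R ω e
  bM : ∀ ω v, |M ω v| ≤ 1
  bR : ∀ ω e, |R ω e| ≤ 1
  eM : ∀ x ω v, M (act (Equiv.mulLeft x) ω) (x * v) = M ω v
  eR : ∀ x ω v a, R (act (Equiv.mulLeft x) ω) (x * v, a) = R ω (v, a)
  cons : ∀ᵐ ω ∂PO Γ, T.Cons θ (M ω) (R ω)

end TG

end

end Vale.Agent.P161
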